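import Vale.Agent.P066.Lab.LSW.Block
import Vale.Agent.P066.Lab.LB1
import Vale.Agent.P066.Lab.KunSigma
import Vale.Agent.P066.Lab.H269.Recol

/-!
# [LSW] W1: the words span
-/

set_option autoImplicit false
set_option linter.unusedSectionVars false

open Finset MvPolynomial

namespace Vale.Agent.P066.Lab.LSW.H235

open Vale.Agent.P066.Lab Vale.Agent.P066.Lab.LSW
open Vale.Agent.P066.Theta.H422 (Alt TP mem_TP mem_Alt)

noncomputable section

variable {n : ℕ}

/-! ### classes -/

section Classes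

variable {S : Type} [Fintype S] [DecidableEq S]

/-- the class of a set of particles -/
def cl (ty : S → Fin n) (X : Finset S) : Fin n →₀ ℕ :=
  Finsupp.equivFunOnFinite.symm fun t => (X.filter fun s => ty s = t).card

theorem cl_apply (ty : S → Fin n) (X : Finset S) (t : Fin n) :
    cl ty X t = (X.filter fun s => ty s = t).card := rfl

theorem sum_type {M : Type} [AddCommMonoid M] (ty : S → Fin n) (X : Finset S) (g : Fin n → M) :
    ∑ s ∈ X, g (ty s) = ∑ t, (X.filter fun s => ty s = t).card • g t := by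
  rw [← sum_fiberwise_of_maps_to (s := X) (t := univ) (g := ty) (fun _ _ => mem_univ _)]
  refine sum_congr rfl fun t _ => ?_
  rw [← sum_const]
  refine sum_congr rfl fun s hs => ?_
  rw [(mem_filter.mp hs).2]

theorem wt_cl (θ : Fin n → ℤ) (ty : S → Fin n) (X : Finset S) :
    Theta.wt θ (cl ty X) = wS (tT θ ty) X := by
  unfold Theta.wt wS tT
  rw [sum_type ty X θ]
  refine sum_congr rfl fun t _ => ?_
  rw [cl_apply, nsmul_eq_mul]

theorem arD_cl (a : Fin n → Fin n → ℕ) (ty : S → Fin n) (X Y : Finset S) :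
    (arD a (cl ty X) (cl ty Y) : ℤ) = ar (aT a ty) X Y := by
  unfold arD ar aT
  have h1 : ∀ s ∈ X, ∑ t ∈ Y, (a (ty s) (ty t) : ℤ) = ∑ j, (cl ty Y j : ℤ) * a (ty s) j := by
    intro s _
    rw [sum_type ty Y fun j => (a (ty s) j : ℤ)]
    refine sum_congr rfl fun j _ => ?_
    rw [cl_apply, nsmul_eq_mul]
  rw [sum_congr rfl h1, sum_type ty X fun i => ∑ j, (cl ty Y j : ℤ) * a i j]
  push_cast
  refine sum_congr rfl fun i _ => ?_
  rw [nsmul_eq_mul, mul_sum]
  refine sum_congr rfl fun j _ => ?_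
  rw [← cl_apply]
  ring

theorem symZ_of_symD {a : Fin n → Fin n → ℕ} {θ : Fin n → ℤ} (h : SymD a θ) (ty : S → Fin n) :
    SymZ (aT a ty) (tT θ ty) := by
  intro X Y _ hX hY
  rw [← arD_cl, ← arD_cl]
  exact_mod_cast h _ _ (by rw [wt_cl, hX]) (by rw [wt_cl, hY])

theorem wt_univ (θ : Fin n → ℤ) (d : Fin n →₀ ℕ) :
    wS (tT θ (Sigma.fst : Pt d → Fin n)) univ = Theta.wt θ d := by
  unfold wS tT Theta.wt
  rw [Fintype.sum_sigma]
  refine sum_congr rfl fun i _ => ?_
  simp

end Classes

/-! ### the zero colouring of a family of classes -/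

section Fam

variable {r : ℕ} {a : Fin n → Fin n → ℕ} {θ : Fin n → ℤ}

theorem blk_cW (D : Fin r → Fin n →₀ ℕ) (j : Fin r) :
    blk (cW D) (j : ℕ) = (univ : Finset (Pt (D j))).image (Sigma.mk j) :=
  (univ_image_mk (P := fun j => Pt (D j)) j).symm

theorem zc_cW {D : Fin r → Fin n →₀ ℕ} (hD : ∀ j, Theta.wt θ (D j) = 0) :
    Zc (tT θ (tyW D)) (cW D) := by
  intro i
  by_cases hi : i < r
  · rw [show i = ((⟨i, hi⟩ : Fin r) : ℕ) from rfl, blk_cW, ← hD ⟨i, hi⟩, ← wt_univ]
    unfold wS
    rw [sum_image fun x _ y _ h => sigma_mk_injective h]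
  · have : blk (cW D) i = ∅ := by
      ext s
      simp only [mem_blk, notMem_empty, iff_false]
      intro h
      have h1 : (s.1 : ℕ) = i := h
      have := s.1.2
      omega
    rw [this]
    simp [wS]

theorem pt_nonempty {d : Fin n →₀ ℕ} (h : d ≠ 0) : Nonempty (Pt d) := by
  obtain ⟨t, ht⟩ := Finsupp.ne_iff.mp h
  rw [Finsupp.zero_apply] at ht
  exact ⟨⟨t, ⟨0, Nat.pos_of_ne_zero ht⟩⟩⟩

/-- `K_c J_c ⊆ J` -/
theorem KC_mul_mem {S : Type} [Fintype S] [DecidableEq S] {a' : S → S → ℕ} {θ' : S → ℤ}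
    {c : S → ℕ} (hc : Zc θ' c) {f : MvPolynomial S ℚ} (hf : f ∈ JC ℚ a' θ' c) :
    KC ℚ a' c * f ∈ J0 ℚ a' θ' univ := by
  have h1 := inP_mul_mem hc (ref_const c 0) hf
  have h2 : inP (fun _ : S => 0) c = univ.filter fun p => c p.1 < c p.2 := by
    ext p
    simp [inP]
  rw [h2] at h1
  have h3 : JC ℚ a' θ' (fun _ : S => 0) ≤ J0 ℚ a' θ' univ := by
    unfold JC
    refine iSup_le fun i => ?_
    by_cases hi : i = 0
    · subst hi
      have : blk (fun _ : S => 0) 0 = univ := by ext s; simp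
      rw [this]
    · have : blk (fun _ : S => 0) i = ∅ := by
        ext s
        simp only [mem_blk, notMem_empty, iff_false]
        exact fun h => hi h.symm
      rw [this, J0_emptyset]
      exact bot_le
  exact h3 h1

end Fam

/-! ### words -/

section Words

variable {a : Fin n → Fin n → ℕ} {θ : Fin n → ℤ} (L : Letters a θ) (d : Fin n →₀ ℕ)

/-- words of level `≤ N`, plus `J0` -/
def Wsp (N : ℤ) : Submodule ℚ (MvPolynomial (Pt d) ℚ) :=
  Submodule.span ℚ {g | ∃ (r : ℕ) (w : Fin r → Ltr L) (e : SW (clsW w) ≃ Pt d),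
      TB (tyW (clsW w)) Sigma.fst e ∧ lev w ≤ N ∧ g = gW w e} ⊔
    (J0 ℚ (aP a d) (θP θ d) univ).restrictScalars ℚ

theorem Wsp_mono {N N' : ℤ} (h : N ≤ N') : Wsp L d N ≤ Wsp L d N' := by
  refine sup_le_sup_right (Submodule.span_mono ?_) _
  rintro g ⟨r, w, e, h1, h2, h3⟩
  exact ⟨r, w, e, h1, h2.trans h, h3⟩

theorem mem_Wsp_of_J0 {N : ℤ} {f : MvPolynomial (Pt d) ℚ}
    (hf : f ∈ J0 ℚ (aP a d) (θP θ d) univ) : f ∈ Wsp L d N :=
  (le_sup_right : (J0 ℚ (aP a d) (θP θ d) univ).restrictScalars ℚ ≤ Wsp L d N) hf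

theorem sum_single_fin {r : ℕ} {α : ℕ →₀ ℕ} (hα : α.support ⊆ range r) :
    ∑ j : Fin r, Finsupp.single (j : ℕ) (α j) = α := by
  rw [← Finset.sum_range fun i => Finsupp.single i (α i)]
  conv_rhs => rw [← Finsupp.sum_single α]
  symm
  refine Finset.sum_subset hα fun i _ hi => ?_
  rw [Finsupp.notMem_support_iff.mp hi, Finsupp.single_zero]

variable {L d}

/-- the letter `(y, m)` -/
def lt {d' : Fin n →₀ ℕ} (y : L.Y d') (m : ℕ) : Ltr L := ⟨d', y, m⟩

theorem PD_letters {r : ℕ} {D : Fin r → Fin n →₀ ℕ} (y : ∀ j, L.Y (D j)) {α : ℕ →₀ ℕ}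
    (hα : α.support ⊆ range r) {e : SW D ≃ Pt d} (he : TB (tyW D) Sigma.fst e) {N : ℤ}
    (hN : 2 * (α.degree : ℤ) + r ≤ N) :
    antis Sigma.fst (rename e (PD a D (fun j => L.v (y j)) α)) ∈ Wsp L d N := by
  refine Submodule.mem_sup_left (Submodule.subset_span ?_)
  have hw : αW (fun j => lt (y j) (α j)) = α := sum_single_fin hα
  refine ⟨r, fun j => lt (y j) (α j), e, he, ?_, ?_⟩
  · refine le_trans (le_of_eq ?_) hN
    have h1 : (α.degree : ℤ) = ∑ j : Fin r, (α j : ℤ) := by
      have h2 := congrArg Finsupp.degree (sum_single_fin hα)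
      rw [map_sum] at h2
      rw [← h2]
      push_cast
      exact sum_congr rfl fun j _ => by rw [Finsupp.degree_single]
    rw [h1]
    rfl
  · have h1 : PW (fun j => lt (y j) (α j)) = PD a D (fun j => L.v (y j)) α := by
      have h2 := PW_eq_PD (fun j => lt (y j) (α j))
      rw [hw] at h2
      exact h2
    exact congrArg (fun x => antis Sigma.fst (rename e x)) h1.symm

theorem PD_update {r : ℕ} (D : Fin r → Fin n →₀ ℕ) (u : ∀ j, MvPolynomial (Pt (D j)) ℚ)
    (α : ℕ →₀ ℕ) (j : Fin r) (x : MvPolynomial (Pt (D j)) ℚ) :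
    PD a D (Function.update u j x) α =
      KC ℚ (aT a (tyW D)) (cW D) * ((rename (Sigma.mk (β := fun i => Pt (D i)) j) x *
          ∏ i ∈ univ.erase j, rename (Sigma.mk (β := fun i => Pt (D i)) i) (u i)) *
        um ℚ (cW D) α) := by
  unfold PD
  congr 2
  rw [← mul_prod_erase univ _ (mem_univ j), Function.update_self]
  congr 1
  refine prod_congr rfl fun i hi => ?_
  rw [Function.update_of_ne (ne_of_mem_erase hi)]

theorem antis_rename_J0 {r : ℕ} {D : Fin r → Fin n →₀ ℕ} {e : SW D ≃ Pt d}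
    (he : TB (tyW D) Sigma.fst e) {f : MvPolynomial (SW D) ℚ}
    (hf : f ∈ J0 ℚ (aT a (tyW D)) (tT θ (tyW D)) univ) {N : ℤ} :
    antis Sigma.fst (rename e f) ∈ Wsp L d N :=
  mem_Wsp_of_J0 L d (antis_J0 ((rename_mem_J0 he f).2 hf))

theorem antis_PD_mem {r : ℕ} {D : Fin r → Fin n →₀ ℕ} (hD : ∀ j, Theta.wt θ (D j) = 0)
    (hD0 : ∀ j, D j ≠ 0) {α : ℕ →₀ ℕ} (hα : α.support ⊆ range r) {e : SW D ≃ Pt d}
    (he : TB (tyW D) Sigma.fst e) {N : ℤ} (hN : 2 * (α.degree : ℤ) + r ≤ N)
    (u : ∀ j, MvPolynomial (Pt (D j)) ℚ) (hu : ∀ j, Fil ℚ (aP a (D j)) (θP θ (D j)) 1 (u j)) :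
    antis Sigma.fst (rename e (PD a D u α)) ∈ Wsp L d N := by
  classical
  have key : ∀ F : Finset (Fin r), ∀ u : ∀ j, MvPolynomial (Pt (D j)) ℚ,
      (∀ j ∈ F, u j ∈ Alt ℚ (Sigma.fst : Pt (D j) → Fin n) ∧
        Fil ℚ (aP a (D j)) (θP θ (D j)) 1 (u j)) →
      (∀ j ∉ F, ∃ y : L.Y (D j), u j = L.v y) →
      antis Sigma.fst (rename e (PD a D u α)) ∈ Wsp L d N := by
    intro F
    induction F using Finset.induction_on with
    | empty =>
      intro u _ hu
      choose y hy using fun j => hu j (notMem_empty j)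
      rw [show u = fun j => L.v (y j) from funext hy]
      exact PD_letters y hα he hN
    | insert j F hj ih =>
      intro u h1 h2
      obtain ⟨h3, h4⟩ := h1 j (mem_insert_self j F)
      obtain ⟨g, hg, hg'⟩ := L.span (D j) (hD0 j) (hD j) (u j) h3 h4
      have h5 : PD a D u α =
          PD a D (Function.update u j (u j - g)) α + PD a D (Function.update u j g) α := by
        rw [PD_update, PD_update, ← mul_add, ← add_mul, ← add_mul, ← map_add, sub_add_cancel,
          ← PD_update, Function.update_eq_self]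
      rw [h5, map_add, map_add]
      refine add_mem ?_ ?_
      · refine antis_rename_J0 he ?_
        rw [PD_update]
        refine KC_mul_mem (zc_cW hD) ?_
        refine Ideal.mul_mem_right _ _ (Ideal.mul_mem_right _ _ ?_)
        refine J0_le_JC (cW D) (j : ℕ) ?_
        exact (rename_mem_J0_mk (P := fun j => Pt (D j)) (a := aT a (tyW D))
          (θ := tT θ (tyW D))).2 hg'
      · clear hg' h5
        induction hg using Submodule.span_induction with
        | mem x hx =>
          obtain ⟨y, rfl⟩ := hx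
          refine ih _ (fun i hi => ?_) fun i hi => ?_
          · have hij : i ≠ j := fun h => hj (h ▸ hi)
            rw [Function.update_of_ne hij]
            exact h1 i (mem_insert_of_mem hi)
          · by_cases hij : i = j
            · subst hij
              exact ⟨y, by rw [Function.update_self]⟩
            · rw [Function.update_of_ne hij]
              exact h2 i fun h => (mem_insert.mp h).elim hij hi
        | zero =>
          rw [PD_update, map_zero, zero_mul, zero_mul, mul_zero, map_zero, map_zero]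
          exact zero_mem _
        | add x y _ _ hx hy =>
          rw [PD_update, map_add, add_mul, add_mul, mul_add, ← PD_update, ← PD_update, map_add,
            map_add]
          exact add_mem hx hy
        | smul q x _ hx =>
          rw [PD_update, map_smul, smul_mul_assoc, smul_mul_assoc, mul_smul_comm, ← PD_update,
            map_smul, map_smul]
          exact Submodule.smul_mem _ _ hx
  obtain ⟨c, _, h⟩ := antis_PD (a := a) D he u α
  rw [h]
  refine Submodule.smul_mem _ _ (key univ _ (fun j _ => ⟨antis_mem_Alt _ _, ?_⟩)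
    fun j hj => absurd (mem_univ j) hj)
  exact antis_fil (a := a) (θ := θ) (ty := (Sigma.fst : Pt (D j) → Fin n)) (hu j)

end Words

/-! ### one zero colouring -/

section Colouring

/-- the blocks of a colouring, in the order of the colours -/
theorem exists_blocks {S : Type} [Fintype S] [DecidableEq S] (ty : S → Fin n) (c : S → ℕ) :
    ∃ (r : ℕ) (D : Fin r → Fin n →₀ ℕ) (e : SW D ≃ S) (o : Fin r → ℕ), StrictMono o ∧
      TB (tyW D) ty e ∧ (∀ s, c (e s) = o s.1) ∧ (∀ j, ∃ s, c s = o j) ∧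
      ∀ j, D j = cl ty (blk c (o j)) := by
  classical
  set o := (univ.image c).orderEmbOfFin rfl with ho
  have hne : ∀ j, ∃ s, c s = o j := by
    intro j
    have := (univ.image c).orderEmbOfFin_mem rfl j
    obtain ⟨s, _, hs⟩ := mem_image.mp this
    exact ⟨s, hs⟩
  let D : Fin (univ.image c).card → Fin n →₀ ℕ := fun j => cl ty (blk c (o j))
  let E : ∀ (j : Fin (univ.image c).card) (t : Fin n),
      Fin (D j t) ≃ ((blk c (o j)).filter fun s => ty s = t : Finset S) :=
    fun j t => ((blk c (o j)).filter fun s => ty s = t).equivFin.symm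
  let F : SW D → S := fun s => (E s.1 s.2.1 s.2.2 : S)
  have hF1 : ∀ s, c (F s) = o s.1 := fun s =>
    mem_blk.mp (mem_filter.mp (E s.1 s.2.1 s.2.2).2).1
  have hF2 : ∀ s, ty (F s) = s.2.1 := fun s => (mem_filter.mp (E s.1 s.2.1 s.2.2).2).2
  have hF : Function.Bijective F := by
    constructor
    · rintro ⟨j, t, x⟩ ⟨j', t', x'⟩ h
      have h1 : o j = o j' := by rw [← hF1 ⟨j, t, x⟩, ← hF1 ⟨j', t', x'⟩, h]
      have h1' : j = j' := o.injective h1
      subst h1'
      have h2 : t = t' := (hF2 ⟨j, t, x⟩).symm.trans ((congrArg ty h).trans (hF2 ⟨j, t', x'⟩))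
      subst h2
      have h3 : x = x' := (E j t).injective (Subtype.ext h)
      rw [h3]
    · intro s
      have hs : c s ∈ Set.range o := by
        rw [ho, Finset.range_orderEmbOfFin]
        exact Finset.mem_coe.mpr (mem_image_of_mem c (mem_univ s))
      obtain ⟨j, hj⟩ := hs
      have hs2 : s ∈ (blk c (o j)).filter fun s' => ty s' = ty s :=
        mem_filter.mpr ⟨mem_blk.mpr hj.symm, rfl⟩
      refine ⟨⟨j, ty s, (E j (ty s)).symm ⟨s, hs2⟩⟩, ?_⟩
      change ((E j (ty s) ((E j (ty s)).symm ⟨s, hs2⟩) : _) : S) = s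
      rw [Equiv.apply_symm_apply]
  exact ⟨_, D, Equiv.ofBijective F hF, o, o.strictMono, hF2, hF1, hne, fun _ => rfl⟩

theorem um_equiv {S S' : Type} [Fintype S] [DecidableEq S] [Fintype S'] [DecidableEq S']
    (e : S' ≃ S) (c : S → ℕ) (α : ℕ →₀ ℕ) : rename e (um ℚ (c ∘ e) α) = um ℚ c α := by
  unfold um Finsupp.prod
  rw [map_prod]
  refine prod_congr rfl fun i _ => ?_
  rw [map_pow, uk_equiv]

variable {a : Fin n → Fin n → ℕ} {θ : Fin n → ℤ} {L : Letters a θ} {d : Fin n →₀ ℕ}

theorem antis_KC_mem (hsym : SymD a θ) {c : Pt d → ℕ} (hc : Zc (tT θ (Sigma.fst : Pt d → Fin n)) c)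
    {w : MvPolynomial (Pt d) ℚ}
    (hw : Gc ℚ (aT a (Sigma.fst : Pt d → Fin n)) (tT θ (Sigma.fst : Pt d → Fin n)) c w)
    {α : ℕ →₀ ℕ} (hα : ∀ i ∈ α.support, i ∈ univ.image c) {N : ℤ}
    (hN : 2 * (α.degree : ℤ) + nb c ≤ N) :
    antis Sigma.fst (KC ℚ (aT a (Sigma.fst : Pt d → Fin n)) c * (w * um ℚ c α)) ∈ Wsp L d N := by
  classical
  obtain ⟨r, D, e, o, ho, he, hce, hne, hDj⟩ := exists_blocks (Sigma.fst : Pt d → Fin n) c
  have hD : ∀ j, Theta.wt θ (D j) = 0 := fun j => by rw [hDj, wt_cl, hc]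
  have hD0 : ∀ j, D j ≠ 0 := by
    intro j h
    obtain ⟨s, hs⟩ := hne j
    have h1 : D j s.1 = 0 := by rw [h]; rfl
    rw [hDj, cl_apply, card_eq_zero, filter_eq_empty_iff] at h1
    exact h1 (mem_blk.mpr hs) rfl
  have hP : ∀ j, Nonempty (Pt (D j)) := fun j => pt_nonempty (hD0 j)
  obtain ⟨σ, hσ, hcσ⟩ := exists_recolour (cW D) (c ∘ e) fun s t => by
    rw [Function.comp_apply, Function.comp_apply, hce, hce, ho.injective.eq_iff]
    exact ⟨fun h => Fin.ext h, fun h => congrArg Fin.val h⟩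
  have hsZ := symZ_of_symD hsym (tyW D)
  have hz := zc_cW (θ := θ) hD
  have hr : nb c = r := by
    rw [← nb_equiv e c, hcσ, nb_recolour hσ]
    exact nb_cS (P := fun j => Pt (D j)) hP
  -- the exponents
  set β := α.comapDomain σ hσ.injOn with hβ
  have hβ1 : β.mapDomain σ = α := by
    refine Finsupp.mapDomain_comapDomain σ hσ α fun i hi => ?_
    obtain ⟨s, _, hs⟩ := mem_image.mp (hα i hi)
    refine ⟨cW D (e.symm s), ?_⟩
    have := congrFun hcσ (e.symm s)
    rw [Function.comp_apply, Function.comp_apply, Equiv.apply_symm_apply, hs] at this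
    exact this.symm
  have hβ2 : β.support ⊆ range r := by
    intro i hi
    have h1 : σ i ∈ α.support := by
      rw [Finsupp.mem_support_iff] at hi ⊢
      exact hi
    obtain ⟨s, _, hs⟩ := mem_image.mp (hα _ h1)
    have := congrFun hcσ (e.symm s)
    rw [Function.comp_apply, Function.comp_apply, Equiv.apply_symm_apply, hs] at this
    rw [mem_range, hσ this]
    exact (e.symm s).1.2
  have hβ3 : β.degree = α.degree := by rw [← hβ1, Finsupp.degree_mapDomain]
  -- transport
  set w' := rename e.symm w with hw'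
  have hw1 : rename e w' = w := by
    rw [hw', rename_rename, show (e ∘ e.symm) = id from funext fun s => by simp, rename_id]
    rfl
  have hG : Gc ℚ (aT a (tyW D)) (tT θ (tyW D)) (cW D) w' := by
    have h1 := (Gc_equiv ℚ e (he.aT_eq a) (he.tT_eq θ) c w').1 (by rw [hw1]; exact hw)
    rw [hcσ] at h1
    exact (Gc_recolour ℚ hsZ hσ (cW D) hz w').1 h1
  have hK : KC ℚ (aT a (tyW D)) (c ∘ e) = KC ℚ (aT a (tyW D)) (cW D) := by
    unfold KC
    congr 1
    ext p
    simp only [mem_filter, mem_univ, true_and, Function.comp_apply, hce, ho.lt_iff_lt]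
    exact Fin.lt_def
  have hU : um ℚ (c ∘ e) α = um ℚ (cW D) β := by
    rw [hcσ, ← hβ1, um_recolour hσ]
  have hmain : KC ℚ (aT a (Sigma.fst : Pt d → Fin n)) c * (w * um ℚ c α) =
      rename e (KC ℚ (aT a (tyW D)) (cW D) * (w' * um ℚ (cW D) β)) := by
    rw [map_mul, map_mul, hw1, ← hK, ← hU, um_equiv, KC_equiv ℚ e (he.aT_eq a)]
  rw [hmain]
  obtain ⟨g, hg, hg'⟩ := exists_span_sigma (P := fun j => Pt (D j)) hsZ hP hz hG
  have h5 : KC ℚ (aT a (tyW D)) (cW D) * (w' * um ℚ (cW D) β) =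
      KC ℚ (aT a (tyW D)) (cW D) * ((w' - g) * um ℚ (cW D) β) +
        KC ℚ (aT a (tyW D)) (cW D) * (g * um ℚ (cW D) β) := by ring
  rw [h5, map_add, map_add]
  refine add_mem (antis_rename_J0 he (KC_mul_mem hz (Ideal.mul_mem_right _ _ hg'))) ?_
  clear hg' h5
  induction hg using Submodule.span_induction with
  | mem x hx =>
    obtain ⟨v, hv, rfl⟩ := hx
    exact antis_PD_mem hD hD0 hβ2 he (by rw [hβ3, ← hr]; exact hN) v hv
  | zero =>
    rw [zero_mul, mul_zero, map_zero, map_zero]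
    exact zero_mem _
  | add x y _ _ hx hy =>
    rw [add_mul, mul_add, map_add, map_add]
    exact add_mem hx hy
  | smul q x _ hx =>
    rw [smul_mul_assoc, mul_smul_comm, map_smul, map_smul]
    exact Submodule.smul_mem _ _ hx

end Colouring

/-! ### the theorem -/

/-- an element of negative level lies in `J0` -/
theorem mem_J0_of_neg {S : Type} [Fintype S] [DecidableEq S] {a' : S → S → ℕ} {θ' : S → ℤ}
    (h0 : wS θ' univ = 0) {N : ℤ} (hN : N < 0) {f : MvPolynomial S ℚ} (hf : Fil ℚ a' θ' N f) :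
    f ∈ J0 ℚ a' θ' univ := by
  have hz : Zc θ' (fun _ : S => 0) := by
    intro i
    by_cases hi : i = 0
    · subst hi
      have : blk (fun _ : S => 0) 0 = univ := by ext s; simp
      rw [this, h0]
    · have : blk (fun _ : S => 0) i = ∅ := by
        ext s
        simp only [mem_blk, notMem_empty, iff_false]
        exact fun h => hi h.symm
      rw [this]
      simp [wS]
  have h1 := hf _ hz 0 (by
    have h2 : CC a' (fun _ : S => 0) = 0 := CC_const a' _ 0 fun _ => rfl
    have h3 : 0 ≤ nb (fun _ : S => 0) := by unfold nb; positivity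
    rw [h2]
    simp only [map_zero, Nat.cast_zero]
    linarith)
  rw [coeff_zero_Tc] at h1
  have h2 := KC_mul_mem hz h1
  have h3 : KC ℚ a' (fun _ : S => 0) = 1 := by
    unfold KC QP
    simp
  rwa [h3, one_mul] at h2

theorem w1 : W1 := by
  intro n a θ hsym L d hd
  have hsZ := symZ_of_symD hsym (Sigma.fst : Pt d → Fin n)
  have key : ∀ m : ℕ, ∀ N : ℤ, N < m → ∀ f ∈ Alt ℚ (Sigma.fst : Pt d → Fin n),
      Fil ℚ (aT a (Sigma.fst : Pt d → Fin n)) (tT θ (Sigma.fst : Pt d → Fin n)) N f →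
        f ∈ Wsp L d N := by
    intro m
    induction m with
    | zero =>
      intro N hN f _ hf
      exact mem_Wsp_of_J0 L d (mem_J0_of_neg ((wt_univ θ d).trans hd) (by simpa using hN) hf)
    | succ m ih =>
      intro N hN f hfA hf
      obtain ⟨R, T, n0, h1, -, h3⟩ := Fil_expand hsZ hf
      have h4 : antis Sigma.fst (f - ∑ c ∈ R, KC ℚ (aT a (Sigma.fst : Pt d → Fin n)) c *
          eval (uk ℚ c) (T c)) ∈ Wsp L d N :=
        Wsp_mono L d (by omega) (ih (N - 1) (by push_cast at hN; omega) _ (antis_mem_Alt _ _)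
          (antis_fil h3))
      have h5 : antis Sigma.fst (∑ c ∈ R, KC ℚ (aT a (Sigma.fst : Pt d → Fin n)) c *
          eval (uk ℚ c) (T c)) ∈ Wsp L d N := by
        rw [map_sum]
        refine Submodule.sum_mem _ fun c hc => ?_
        have hT := h1 c hc
        rw [eval_uk_eq, mul_sum, map_sum]
        refine Submodule.sum_mem _ fun α hα => ?_
        refine antis_KC_mem hsym hT.zc (hT.gc α) (hT.sup α hα) (le_of_eq ?_)
        have h6 : α.degree = n0 c := by
          by_contra hne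
          exact (mem_support_iff.mp hα) (hT.hom.coeff_eq_zero hne)
        rw [h6, hT.lev]
      rw [eq_of_mem_Alt hfA]
      refine Submodule.smul_mem _ _ ?_
      have h6 := add_mem h4 h5
      rwa [← map_add, sub_add_cancel] at h6
  intro N f hfA hf
  exact key (N.toNat + 1) N (by push_cast; have := Int.self_le_toNat N; omega) f hfA hf

end

end Vale.Agent.P066.Lab.LSW.H235
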